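import Mathlib

/-!
T8 (maximality lemma (M)) of the TOWERS blueprint.
-/

namespace Vale.Agent.P036.TW.T8

open NumberField Polynomial

/-- `a` is, up to a square, integral, a unit at `p`, and (if `p` lies over `2`) a square mod `4`. -/
def SqUnitAt {L : Type*} [Field L] [NumberField L] (a : L) (p : Ideal (𝓞 L)) : Prop :=
  ∃ (b : L) (c : 𝓞 L), b ≠ 0 ∧ (c : L) = a * b ^ 2 ∧ c ∉ p ∧
    ((2 : 𝓞 L) ∈ p → ∃ s : 𝓞 L, (4 : 𝓞 L) ∣ c - s ^ 2)

/-- `a` is, up to a square, integral, a unit at `p` and a square mod `p`. -/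
def SqAt {L : Type*} [Field L] [NumberField L] (a : L) (p : Ideal (𝓞 L)) : Prop :=
  ∃ (b : L) (c : 𝓞 L), b ≠ 0 ∧ (c : L) = a * b ^ 2 ∧ c ∉ p ∧ ∃ s : 𝓞 L, c - s ^ 2 ∈ p

section transport

variable {L : Type*} [Field L] [NumberField L]

theorem coe_smul_int (h : L ≃ₐ[ℚ] L) (c : 𝓞 L) : ((h • c : 𝓞 L) : L) = h (c : L) := rfl

theorem sqUnitAt_smul (h : L ≃ₐ[ℚ] L) (a : L) (p : Ideal (𝓞 L))
    (H : SqUnitAt a (p.comap (MulSemiringAction.toRingHom (L ≃ₐ[ℚ] L) (𝓞 L) h))) :
    SqUnitAt (h a) p := by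
  obtain ⟨b, c, hb, hc, hcp, h4⟩ := H
  refine ⟨h b, h • c, by simpa using hb, ?_, ?_, ?_⟩
  · rw [coe_smul_int, hc, map_mul, map_pow]
  · exact fun hh => hcp hh
  · intro h2
    obtain ⟨s, d, hd⟩ := h4 (by
      change h • (2 : 𝓞 L) ∈ p
      have : h • (2 : 𝓞 L) = 2 := map_ofNat (MulSemiringAction.toRingHom (L ≃ₐ[ℚ] L) (𝓞 L) h) 2
      rw [this]; exact h2)
    refine ⟨h • s, h • d, ?_⟩
    have : h • (4 : 𝓞 L) = 4 := map_ofNat (MulSemiringAction.toRingHom (L ≃ₐ[ℚ] L) (𝓞 L) h) 4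
    rw [← this, ← smul_mul', ← hd, smul_sub, smul_pow']

theorem sqAt_smul (h : L ≃ₐ[ℚ] L) (a : L) (p : Ideal (𝓞 L))
    (H : SqAt a (p.comap (MulSemiringAction.toRingHom (L ≃ₐ[ℚ] L) (𝓞 L) h))) :
    SqAt (h a) p := by
  obtain ⟨b, c, hb, hc, hcp, s, hs⟩ := H
  refine ⟨h b, h • c, by simpa using hb, ?_, ?_, h • s, ?_⟩
  · rw [coe_smul_int, hc, map_mul, map_pow]
  · exact fun hh => hcp hh
  · have h1 : h • (c - s ^ 2) ∈ p := hs
    rwa [smul_sub, smul_pow'] at h1

end transport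

section quad

variable {L M : Type*} [Field L] [NumberField L] [Field M] [NumberField M] [Algebra L M]

/-- integral square root -/
theorem exists_int_sqrt {a b : L} {c : 𝓞 L} {y : M} (hy : y ^ 2 = algebraMap L M a)
    (hc : (c : L) = a * b ^ 2) :
    ∃ z : 𝓞 M, (z : M) = y * algebraMap L M b ∧ z ^ 2 = algebraMap (𝓞 L) (𝓞 M) c := by
  have hz2 : (y * algebraMap L M b) ^ 2 = algebraMap (𝓞 L) M c := by
    have : algebraMap (𝓞 L) M c = algebraMap L M (c : L) := rfl
    rw [this, hc, mul_pow, hy]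
    simp
  have hzint : IsIntegral (𝓞 L) (y * algebraMap L M b) := by
    refine IsIntegral.of_pow (n := 2) (by norm_num) ?_
    rw [hz2]
    exact isIntegral_algebraMap
  have hzint' : IsIntegral ℤ (y * algebraMap L M b) := isIntegral_trans _ hzint
  refine ⟨⟨y * algebraMap L M b, hzint'⟩, rfl, ?_⟩
  apply RingOfIntegers.ext
  exact hz2

/-- integral `(s + z)/2` -/
theorem exists_int_half {c s d : 𝓞 L} {z : 𝓞 M} (hz : z ^ 2 = algebraMap (𝓞 L) (𝓞 M) c)
    (hd : c - s ^ 2 = 4 * d) :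
    ∃ x : 𝓞 M, 2 * x = algebraMap (𝓞 L) (𝓞 M) s + z := by
  have hxint : IsIntegral (𝓞 L) ((algebraMap (𝓞 L) M s + (z : M)) / 2) := by
    refine ⟨X ^ 2 - C s * X - C d, by monicity!, ?_⟩
    have e1 : (z : M) ^ 2 = algebraMap (𝓞 L) M c := congrArg (fun t : 𝓞 M => (t : M)) hz
    have e2 : algebraMap (𝓞 L) M c = (algebraMap (𝓞 L) M s) ^ 2 + 4 * algebraMap (𝓞 L) M d := by
      have : c = s ^ 2 + 4 * d := by rw [← hd]; ring
      rw [this, map_add, map_mul, map_pow, map_ofNat]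
    simp only [eval₂_sub, eval₂_mul, eval₂_pow, eval₂_X, eval₂_C]
    rw [e2] at e1
    linear_combination (1 / 4) * e1
  refine ⟨⟨(algebraMap (𝓞 L) M s + (z : M)) / 2, isIntegral_trans _ hxint⟩, ?_⟩
  apply RingOfIntegers.ext
  change 2 * ((algebraMap (𝓞 L) M s + (z : M)) / 2) = algebraMap (𝓞 L) M s + (z : M)
  ring

/-- if `g` is in the inertia group at `P` and fixes `L`, it fixes `√a` -/
theorem fix_of_inertia {a : L} {y : M} (hy : y ^ 2 = algebraMap L M a) (g : M ≃ₐ[ℚ] M)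
    (hgL : ∀ x : L, g (algebraMap L M x) = algebraMap L M x) (P : Ideal (𝓞 M)) [P.IsPrime]
    (hin : ∀ x : 𝓞 M, g • x - x ∈ P) (hgood : SqUnitAt a (P.under (𝓞 L))) : g y = y := by
  obtain ⟨b, c, hb, hc, hcp, h4⟩ := hgood
  obtain ⟨z, hzM, hz⟩ := exists_int_sqrt hy hc
  have hb' : algebraMap L M b ≠ 0 := by simpa using hb
  have hcP : algebraMap (𝓞 L) (𝓞 M) c ∉ P := fun h => hcp h
  have hzP : z ∉ P := by
    intro h
    apply hcP
    rw [← hz]
    exact Ideal.pow_mem_of_mem P h 2 (by norm_num)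
  have hgc : ∀ x : 𝓞 L, g • (algebraMap (𝓞 L) (𝓞 M) x) = algebraMap (𝓞 L) (𝓞 M) x := by
    intro x
    apply RingOfIntegers.ext
    exact hgL x
  have h2 : (g • z) ^ 2 = z ^ 2 := by
    rw [← smul_pow', hz, hgc]
  have h2' : (g • z - z) * (g • z + z) = 0 := by linear_combination h2
  have key : g • z = z := by
    rcases mul_eq_zero.mp h2' with h | h
    · exact sub_eq_zero.mp h
    · exfalso
      have hgz : g • z = -z := eq_neg_of_add_eq_zero_left h
      by_cases h2 : (2 : 𝓞 M) ∈ P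
      · have h2L : (2 : 𝓞 L) ∈ P.under (𝓞 L) := by
          change algebraMap (𝓞 L) (𝓞 M) 2 ∈ P
          rw [map_ofNat]
          exact h2
        obtain ⟨s, d, hd⟩ := h4 h2L
        obtain ⟨x, hx⟩ := exists_int_half hz hd
        have h3 : 2 * (g • x - x) = 2 * (-z) := by
          have : g • (2 * x) = g • (algebraMap (𝓞 L) (𝓞 M) s + z) := by rw [hx]
          rw [smul_mul', smul_add, hgc, hgz] at this
          have h22 : g • (2 : 𝓞 M) = 2 :=
            map_ofNat (MulSemiringAction.toRingHom (M ≃ₐ[ℚ] M) (𝓞 M) g) 2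
          rw [h22] at this
          linear_combination this - hx
        have h4 : g • x - x = -z := mul_left_cancel₀ (by norm_num) h3
        have h5 := hin x
        rw [h4] at h5
        exact hzP (by simpa using h5)
      · have h5 := hin z
        rw [hgz] at h5
        have h6 : 2 * z ∈ P := by
          have : 2 * z = -(-z - z) := by ring
          rw [this]
          exact P.neg_mem h5
        rcases Ideal.IsPrime.mem_or_mem inferInstance h6 with h | h
        · exact h2 h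
        · exact hzP h
  have key' : g (z : M) = z := congrArg (fun t : 𝓞 M => (t : M)) key
  rw [hzM, map_mul, hgL] at key'
  exact mul_right_cancel₀ hb' key'

/-- if `g` is in the decomposition group at `P`, `a` is a square at `P`, and `g` fixes `L`,
it fixes `√a` -/
theorem fix_of_decomp {a : L} {y : M} (hy : y ^ 2 = algebraMap L M a) (g : M ≃ₐ[ℚ] M)
    (hgL : ∀ x : L, g (algebraMap L M x) = algebraMap L M x) (P : Ideal (𝓞 M)) [P.IsPrime]
    (hin : ∀ x ∈ P, g • x ∈ P) (h2P : (2 : 𝓞 M) ∉ P)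
    (hgood : SqAt a (P.under (𝓞 L))) : g y = y := by
  obtain ⟨b, c, hb, hc, hcp, s, hs⟩ := hgood
  obtain ⟨z, hzM, hz⟩ := exists_int_sqrt hy hc
  have hb' : algebraMap L M b ≠ 0 := by simpa using hb
  have hcP : algebraMap (𝓞 L) (𝓞 M) c ∉ P := fun h => hcp h
  have hzP : z ∉ P := by
    intro h
    apply hcP
    rw [← hz]
    exact Ideal.pow_mem_of_mem P h 2 (by norm_num)
  have hgc : ∀ x : 𝓞 L, g • (algebraMap (𝓞 L) (𝓞 M) x) = algebraMap (𝓞 L) (𝓞 M) x := by
    intro x
    apply RingOfIntegers.ext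
    exact hgL x
  have h2 : (g • z) ^ 2 = z ^ 2 := by
    rw [← smul_pow', hz, hgc]
  have h2' : (g • z - z) * (g • z + z) = 0 := by linear_combination h2
  have hfac : (z - algebraMap (𝓞 L) (𝓞 M) s) * (z + algebraMap (𝓞 L) (𝓞 M) s) ∈ P := by
    have : (z - algebraMap (𝓞 L) (𝓞 M) s) * (z + algebraMap (𝓞 L) (𝓞 M) s) =
        algebraMap (𝓞 L) (𝓞 M) (c - s ^ 2) := by
      rw [map_sub, map_pow]
      linear_combination hz
    rw [this]
    exact hs
  have key : g • z = z := by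
    rcases mul_eq_zero.mp h2' with h | h
    · exact sub_eq_zero.mp h
    · exfalso
      have hgz : g • z = -z := eq_neg_of_add_eq_zero_left h
      have h6 : 2 * z ∈ P := by
        rcases Ideal.IsPrime.mem_or_mem inferInstance hfac with h | h
        · have h7 := hin _ h
          rw [smul_sub, hgz, hgc] at h7
          have : 2 * z = (z - algebraMap (𝓞 L) (𝓞 M) s) - (-z - algebraMap (𝓞 L) (𝓞 M) s) := by
            ring
          rw [this]
          exact P.sub_mem h h7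
        · have h7 := hin _ h
          rw [smul_add, hgz, hgc] at h7
          have : 2 * z = (z + algebraMap (𝓞 L) (𝓞 M) s) - (-z + algebraMap (𝓞 L) (𝓞 M) s) := by
            ring
          rw [this]
          exact P.sub_mem h h7
      rcases Ideal.IsPrime.mem_or_mem inferInstance h6 with h | h
      · exact h2P h
      · exact hzP h
  have key' : g (z : M) = z := congrArg (fun t : 𝓞 M => (t : M)) key
  rw [hzM, map_mul, hgL] at key'
  exact mul_right_cancel₀ hb' key'

end quad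

end Vale.Agent.P036.TW.T8
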