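import Mathlib
import Vale.Agent.P036.TW.T8.Max
import Vale.Agent.P036.TW.Spec

namespace Vale.Agent.P036.TW.T8

open NumberField Polynomial IsDedekindDomain
open scoped Pointwise nonZeroDivisors

/-- The Galois closure over `ℚ` of `L(√a)`. -/
theorem exists_closure {L : Type} [Field L] [NumberField L] [IsGalois ℚ L] (a : L) :
    ∃ (M : Type) (_ : Field M) (_ : NumberField M) (_ : Algebra L M), IsGalois ℚ M ∧
      (∃ y : M, y ^ 2 = algebraMap L M a) ∧
      Algebra.adjoin L {y : M | ∃ h : L ≃ₐ[ℚ] L, y ^ 2 = algebraMap L M (h a)} = ⊤ := by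
  classical
  have haint : IsIntegral ℚ a := Algebra.IsIntegral.isIntegral a
  obtain ⟨q, hq⟩ : ∃ q : ℚ[X], q = (minpoly ℚ a).comp (X ^ 2) := ⟨_, rfl⟩
  have hm : q.Monic := by
    rw [hq]
    apply (minpoly.monic haint).comp (monic_X_pow 2)
    simp
  have hq0 : q ≠ 0 := hm.ne_zero
  let M := (q.map (algebraMap ℚ L)).SplittingField
  have : FiniteDimensional ℚ M := FiniteDimensional.trans ℚ L M
  have hNF : NumberField M := { to_charZero := inferInstance, to_finiteDimensional := this }
  have hsplM : IsSplittingField L M (q.map (algebraMap ℚ L)) := inferInstance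
  refine ⟨M, inferInstance, hNF, inferInstance, ?_, ?_, ?_⟩
  · obtain ⟨p, hp, hp2⟩ := IsGalois.is_separable_splitting_field ℚ L
    have hp0 : p ≠ 0 := hp.ne_zero
    have : IsSplittingField ℚ M (p * q) :=
      IsSplittingField.mul (K := L) M p q hp0 hq0
    have : Normal ℚ M := Normal.of_isSplittingField (p * q)
    exact ⟨⟩
  · -- `X^2 - a` divides `q`
    have hdvd : (X ^ 2 - C a : L[X]) ∣ q.map (algebraMap ℚ L) := by
      have h1 : (X - C a : L[X]) ∣ (minpoly ℚ a).map (algebraMap ℚ L) := by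
        rw [dvd_iff_isRoot]
        rw [IsRoot, eval_map_algebraMap, minpoly.aeval]
      obtain ⟨r, hr⟩ := h1
      refine ⟨r.comp (X ^ 2), ?_⟩
      rw [hq, Polynomial.map_comp, hr, mul_comp]
      simp
    have hs : ((X ^ 2 - C a : L[X]).map (algebraMap L M)).Splits := by
      have h2 := hsplM.splits'
      refine Splits.of_dvd h2 ?_ (Polynomial.map_dvd _ hdvd)
      rw [Polynomial.map_ne_zero_iff (algebraMap L M).injective,
        Polynomial.map_ne_zero_iff (algebraMap ℚ L).injective]
      exact hq0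
    have hdeg : ((X ^ 2 - C a : L[X]).map (algebraMap L M)).degree ≠ 0 := by
      rw [degree_map]
      have : (X ^ 2 - C a : L[X]).degree = 2 := by compute_degree!
      rw [this]
      norm_num
    obtain ⟨y, hy⟩ := hs.exists_eval_eq_zero hdeg
    refine ⟨y, ?_⟩
    simpa [sub_eq_zero] using hy
  · rw [eq_top_iff, ← IsSplittingField.adjoin_rootSet M (q.map (algebraMap ℚ L))]
    apply Algebra.adjoin_mono
    intro y hy
    have hy1 : aeval y (q.map (algebraMap ℚ L)) = 0 := (mem_rootSet.mp hy).2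
    have hy2 : aeval (y ^ 2) (minpoly ℚ a) = 0 := by
      rw [aeval_map_algebraMap] at hy1
      have h5 : aeval y ((minpoly ℚ a).comp (X ^ 2)) = 0 := by
        simpa only [hq] using hy1
      rw [aeval_comp] at h5
      simpa using h5
    -- roots of `minpoly ℚ a` in `M` come from `L`
    have hspl : ((minpoly ℚ a).map (algebraMap ℚ L)).Splits := Normal.splits inferInstance a
    have h3 : eval (y ^ 2) (((minpoly ℚ a).map (algebraMap ℚ L)).map (algebraMap L M)) = 0 := by
      rw [Polynomial.map_map, ← IsScalarTower.algebraMap_eq, eval_map_algebraMap]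
      exact hy2
    have hne : (minpoly ℚ a).map (algebraMap ℚ L) ≠ 0 :=
      (Polynomial.map_ne_zero_iff (algebraMap ℚ L).injective).mpr (minpoly.ne_zero haint)
    have h4 : ∃ b : L, algebraMap L M b = y ^ 2 ∧
        eval b ((minpoly ℚ a).map (algebraMap ℚ L)) = 0 := by
      obtain ⟨b, hb⟩ := hspl.mem_range_of_isRoot hne h3
      refine ⟨b, hb, ?_⟩
      rw [← hb, eval_map, eval₂_at_apply] at h3
      exact (map_eq_zero_iff _ (algebraMap L M).injective).mp h3
    obtain ⟨b, hb, hb0⟩ := h4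
    rw [eval_map_algebraMap] at hb0
    obtain ⟨σ, hσ⟩ := minpoly.exists_algEquiv_of_root (K := ℚ) (L := L) (x := b) (y := a)
      haint.isAlgebraic hb0
    refine ⟨σ.symm, ?_⟩
    rw [← hb, ← hσ]
    simp


theorem exists_bigger {D : ℤ} {P0 : Finset ℕ} (hP0 : ∀ l ∈ P0, Odd l) {L : Type} [Field L]
    [NumberField L] (h : Adm D P0 L) (a : L) (ha : ¬ ∃ y : L, y ^ 2 = a)
    (hloc : ∀ p : Ideal (𝓞 L), p.IsMaximal → SqUnitAt a p)
    (hspl : ∀ l ∈ P0, ∀ p : Ideal (𝓞 L), p.IsMaximal → (l : 𝓞 L) ∈ p → SqAt a p) :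
    ∃ (M : Type) (_ : Field M) (_ : NumberField M), Adm D P0 M ∧
      Module.finrank ℚ L < Module.finrank ℚ M := by
  have := h.gal
  obtain ⟨M, hF, hNF, hAlg, hgal, ⟨y, hy⟩, hgen⟩ := exists_closure a
  refine ⟨M, hF, hNF, ?_, ?_⟩
  · -- restriction to `L`
    have hcomm : ∀ (g : M ≃ₐ[ℚ] M) (x : L), algebraMap L M (g.restrictNormal L x) =
        g (algebraMap L M x) := fun g x => g.restrictNormal_commutes L x
    have hcommInt : ∀ (g : M ≃ₐ[ℚ] M) (x : 𝓞 L),
        algebraMap (𝓞 L) (𝓞 M) ((g.restrictNormal L) • x) = g • algebraMap (𝓞 L) (𝓞 M) x := by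
      intro g x
      apply RingOfIntegers.ext
      exact hcomm g x
    -- an automorphism fixing `L` and all square roots is trivial
    have hone : ∀ g : M ≃ₐ[ℚ] M, g.restrictNormal L = 1 →
        (∀ (k : L ≃ₐ[ℚ] L) (z : M), z ^ 2 = algebraMap L M (k a) → g z = z) → g = 1 := by
      intro g hg hroots
      have hgL : ∀ x : L, g (algebraMap L M x) = algebraMap L M x := by
        intro x
        rw [← hcomm g x, hg]
        rfl
      let g' : M →ₐ[L] M := { (g : M →+* M) with commutes' := hgL }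
      have hg' : g' = AlgHom.id L M := by
        apply AlgHom.ext_of_adjoin_eq_top hgen
        rintro z ⟨k, hz⟩
        exact hroots k z hz
      ext x
      exact DFunLike.congr_fun hg' x
    have hgL : ∀ g : M ≃ₐ[ℚ] M, g.restrictNormal L = 1 →
        ∀ x : L, g (algebraMap L M x) = algebraMap L M x := by
      intro g hg x
      rw [← hcomm g x, hg]
      rfl
    have hcomap : ∀ (k : L ≃ₐ[ℚ] L) (p : Ideal (𝓞 L)), p.IsMaximal →
        (p.comap (MulSemiringAction.toRingHom (L ≃ₐ[ℚ] L) (𝓞 L) k)).IsMaximal := by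
      intro k p hp
      have hsurj : Function.Surjective (MulSemiringAction.toRingHom (L ≃ₐ[ℚ] L) (𝓞 L) k) := by
        intro x
        refine ⟨k⁻¹ • x, ?_⟩
        change k • k⁻¹ • x = x
        rw [smul_inv_smul]
      exact Ideal.comap_isMaximal_of_surjective _ hsurj
    refine ⟨hgal, ?_, ?_, ?_, ?_⟩
    · -- `2`-group
      intro g
      obtain ⟨n, hn⟩ := h.two (AlgEquiv.restrictNormalHom L g)
      refine ⟨n + 1, ?_⟩
      rw [pow_succ, pow_mul]
      have h1 : (g ^ 2 ^ n).restrictNormal L = 1 := by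
        have : AlgEquiv.restrictNormalHom L (g ^ 2 ^ n) = 1 := by rw [map_pow, hn]
        exact this
      have hgL' := hgL _ h1
      refine hone _ ?_ ?_
      · have : AlgEquiv.restrictNormalHom L ((g ^ 2 ^ n) ^ 2) = 1 := by
          rw [map_pow, map_pow, hn, one_pow]
        exact this
      · intro k z hz
        have h2 : ((g ^ 2 ^ n) z) ^ 2 = z ^ 2 := by
          rw [← map_pow, hz, hgL']
        rw [pow_two]
        change (g ^ 2 ^ n) ((g ^ 2 ^ n) z) = z
        rcases sq_eq_sq_iff_eq_or_eq_neg.mp h2 with h3 | h3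
        · rw [h3, h3]
        · rw [h3, map_neg, h3, neg_neg]
    · obtain ⟨δ, hδ⟩ := h.root
      refine ⟨algebraMap L M δ, ?_⟩
      rw [← map_pow, hδ]
      simp
    · obtain ⟨δ, hδ⟩ := h.root
      have hin := h.unr δ hδ
      intro δ' hδ' P hP g hg hx
      have hδδ : δ' ^ 2 = (algebraMap L M δ) ^ 2 := by
        rw [hδ', ← map_pow, hδ]
        simp
      have hg' : g δ' = δ' := hg
      have hgδ : g (algebraMap L M δ) = algebraMap L M δ := by
        rcases sq_eq_sq_iff_eq_or_eq_neg.mp hδδ with h3 | h3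
        · rw [← h3, hg']
        · have h4 : algebraMap L M δ = -δ' := by rw [h3, neg_neg]
          rw [h4, map_neg, hg']
      have hPu : (P.under (𝓞 L)).IsMaximal := inferInstance
      have h1 : g.restrictNormal L = 1 := by
        refine hin (P.under (𝓞 L)) hPu _ ?_ ?_
        · change (g.restrictNormal L) δ = δ
          apply (algebraMap L M).injective
          rw [hcomm, hgδ]
        · intro x
          change algebraMap (𝓞 L) (𝓞 M) _ ∈ P
          rw [map_sub, hcommInt]
          exact hx _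
      refine hone g h1 ?_
      intro k z hz
      refine fix_of_inertia hz g (hgL g h1) P hx ?_
      exact sqUnitAt_smul k a _ (hloc _ (hcomap k _ hPu))
    · intro l hl P hP hlP g hg
      have hPu : (P.under (𝓞 L)).IsMaximal := inferInstance
      have hlPu : (l : 𝓞 L) ∈ P.under (𝓞 L) := by
        change algebraMap (𝓞 L) (𝓞 M) l ∈ P
        rw [map_natCast]
        exact hlP
      have hgP : ∀ x ∈ P, g • x ∈ P := by
        intro x hx
        have h5 : g • x ∈ g • P := Ideal.smul_mem_pointwise_smul _ _ _ hx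
        rwa [hg] at h5
      have h1 : g.restrictNormal L = 1 := by
        refine h.split l hl (P.under (𝓞 L)) hPu hlPu _ ?_
        have hle : (g.restrictNormal L) • (P.under (𝓞 L)) ≤ P.under (𝓞 L) := by
          intro x hx
          rw [Ideal.mem_pointwise_smul_iff_inv_smul_mem] at hx
          have h6 : algebraMap (𝓞 L) (𝓞 M) ((g.restrictNormal L)⁻¹ • x) ∈ P := hx
          have h7 := hgP _ h6
          rw [← hcommInt, smul_inv_smul] at h7
          exact h7
        have hmax : ((g.restrictNormal L) • (P.under (𝓞 L))).IsMaximal := by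
          have h8 : (g.restrictNormal L) • (P.under (𝓞 L)) = (P.under (𝓞 L)).comap
              (MulSemiringAction.toRingHom (L ≃ₐ[ℚ] L) (𝓞 L) (g.restrictNormal L)⁻¹) := by
            ext x
            rw [Ideal.mem_pointwise_smul_iff_inv_smul_mem]
            rfl
          rw [h8]
          exact hcomap _ _ hPu
        exact hmax.eq_of_le hPu.ne_top hle
      have h2P : (2 : 𝓞 M) ∉ P := by
        intro h2
        obtain ⟨m, hm⟩ := hP0 l hl
        apply hP.ne_top
        rw [Ideal.eq_top_iff_one]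
        have : (1 : 𝓞 M) = l - 2 * m := by
          rw [hm]; push_cast; ring
        rw [this]
        exact P.sub_mem hlP (P.mul_mem_right _ h2)
      refine hone g h1 ?_
      intro k z hz
      refine fix_of_decomp hz g (hgL g h1) P hgP h2P ?_
      refine sqAt_smul k a _ (hspl l hl _ (hcomap k _ hPu) ?_)
      change k • (l : 𝓞 L) ∈ P.under (𝓞 L)
      have : k • (l : 𝓞 L) = l := map_natCast (MulSemiringAction.toRingHom (L ≃ₐ[ℚ] L) (𝓞 L) k) l
      rw [this]
      exact hlPu
  · have hmul := Module.finrank_mul_finrank ℚ L M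
    have hpos : 0 < Module.finrank ℚ L := Module.finrank_pos
    have h2 : Module.finrank L M ≠ 1 := by
      intro h1
      have hbot : (⊥ : Subalgebra L M) = ⊤ := Subalgebra.bot_eq_top_iff_finrank_eq_one.mpr h1
      have hyb : y ∈ (⊥ : Subalgebra L M) := by rw [hbot]; exact Algebra.mem_top
      obtain ⟨t, ht⟩ := Algebra.mem_bot.mp hyb
      apply ha
      refine ⟨t, (algebraMap L M).injective ?_⟩
      rw [map_pow, ht, hy]
    have hpos2 : 0 < Module.finrank L M := Module.finrank_pos
    rw [← hmul]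
    nlinarith [Nat.lt_of_le_of_ne hpos2 (Ne.symm h2)]

theorem valuation_int {L : Type} [Field L] [NumberField L] (P : Pl L) (a : 𝓞 L) (ha : a ≠ 0) :
    P.valuation L (a : L) = WithZero.exp (-(ord P (a : L))) := by
  have h1 : P.valuation L (algebraMap (𝓞 L) L a) = P.intValuation a :=
    HeightOneSpectrum.valuation_of_algebraMap P a
  have h2 : (Ideal.span {a} : Ideal (𝓞 L)) ≠ 0 := by
    simpa using ha
  change P.valuation L (algebraMap (𝓞 L) L a) = _
  rw [h1, HeightOneSpectrum.intValuation_if_neg P ha]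
  unfold ord
  have h3 : FractionalIdeal.spanSingleton (𝓞 L)⁰ (a : L) =
      ((Ideal.span {a} : Ideal (𝓞 L)) : FractionalIdeal (𝓞 L)⁰ L) := by
    rw [FractionalIdeal.coeIdeal_span_singleton]
  rw [h3, FractionalIdeal.count_coe L P h2]

theorem sqUnitAt_of_even {L : Type} [Field L] [NumberField L] (a : 𝓞 L) (ha : a ≠ 0)
    (P : Pl L) (hev : Even (ord P (a : L))) (h2 : (2 : 𝓞 L) ∉ P.asIdeal) :
    SqUnitAt (a : L) P.asIdeal := by
  obtain ⟨n, hn⟩ := hev
  obtain ⟨b, hb⟩ := HeightOneSpectrum.valuation_surjective (K := L) P (WithZero.exp n)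
  have hb0 : b ≠ 0 := by
    rintro rfl
    rw [map_zero] at hb
    exact WithZero.exp_ne_zero hb.symm
  have hx : P.valuation L ((a : L) * b ^ 2) = 1 := by
    rw [map_mul, map_pow, valuation_int P a ha, hn, hb, pow_two, ← WithZero.exp_add,
      ← WithZero.exp_add, ← WithZero.exp_zero]
    congr 1
    ring
  obtain ⟨r, d, hrd⟩ := HeightOneSpectrum.exists_primeCompl_mul_eq_of_integer P _ hx.le
  have hd : (d : 𝓞 L) ∉ P.asIdeal := d.2
  have hvd : P.valuation L (algebraMap (𝓞 L) L d) = 1 :=
    (HeightOneSpectrum.valuation_eq_one_iff_notMem P).mpr hd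
  have hr : r ∉ P.asIdeal := by
    rw [← HeightOneSpectrum.valuation_eq_one_iff_notMem (K := L) P, ← hrd, map_mul, hx, hvd,
      one_mul]
  have hdL : algebraMap (𝓞 L) L d ≠ 0 := by
    intro h0
    rw [h0] at hvd
    simp at hvd
  refine ⟨b * algebraMap (𝓞 L) L d, r * d, mul_ne_zero hb0 hdL, ?_, ?_, fun h => absurd h h2⟩
  · change algebraMap (𝓞 L) L (r * d) = _
    rw [map_mul, ← hrd]
    ring
  · intro h
    rcases P.isPrime.mem_or_mem h with h | h
    · exact hr h
    · exact hd h

/-- Block T8: the maximality lemma (M). -/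
theorem t8 : T8Stmt := by
  intro D P0 hD hP0 L _ _ hL δ hδ a ha hinv hev h2 h4 hl
  by_contra hcon
  have hne : ¬ ∃ y : L, y ^ 2 = (a : L) := fun ⟨y, hy⟩ => hcon ⟨y, hy.symm⟩
  have hodd : ∀ l ∈ P0, Odd l := by
    intro l hl
    obtain ⟨hp, h2⟩ := hP0 l hl
    exact hp.odd_of_ne_two (by omega)
  have h5 : ∀ p : Ideal (𝓞 L), p.IsMaximal → SqUnitAt (a : L) p := by
    intro p hp
    by_cases h2p : (2 : 𝓞 L) ∈ p
    · refine ⟨1, a, one_ne_zero, by simp, h2 p hp h2p, fun _ => h4⟩
    · have hpb : p ≠ ⊥ :=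
        Ring.ne_bot_of_isMaximal_of_not_isField hp (RingOfIntegers.not_isField L)
      exact sqUnitAt_of_even a ha ⟨p, hp.isPrime, hpb⟩ (hev _) h2p
  have h6 : ∀ l ∈ P0, ∀ p : Ideal (𝓞 L), p.IsMaximal → (l : 𝓞 L) ∈ p → SqAt (a : L) p := by
    intro l hl0 p hp hlp
    obtain ⟨h5, s, h6⟩ := hl l hl0 p hp hlp
    exact ⟨1, a, one_ne_zero, by simp, h5, s, h6⟩
  obtain ⟨M, i1, i2, hM, hlt⟩ := exists_bigger hodd hL.1 (a : L) hne h5 h6
  exact absurd (hL.2 M hM) (not_le.mpr hlt)

end Vale.Agent.P036.TW.T8
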